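import Vale.Agent.P153.R2.ARCX.Flow
import Vale.Agent.P153.R2.HULL.Limit

/-!
# P153, block DET: swallowed points are bounded
-/

open Set Filter Topology Metric Vale.Agent.P164

namespace Vale.Agent.P153.R2.DET

open Vale.Agent.P153.R2.ARCX Vale.Agent.P153.R2.HULL

/-- far points are alive -/
theorem exists_bdd {W : ℝ → ℝ} (hW : Continuous W) {T : ℝ} (hT : 0 ≤ T) :
    ∃ R : ℝ, ∀ z : ℂ, 0 < z.im → R < ‖z‖ → z ∈ loewnerDomain W T := by
  obtain ⟨M, hM0, hM⟩ := exists_M hW T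
  refine ⟨M + 1 + 2 * T, fun z hz hzR => ?_⟩
  have hc : 0 < z.im * Real.exp (-(2 * T)) := by positivity
  refine alive_of_lower hW hz hT hc fun s hs hsT hzs => ?_
  have hbig : ∀ u ∈ Icc 0 s, 1 ≤ ‖Zf W z u‖ := by
    intro u hu
    obtain ⟨g, hg⟩ := dom_mono hu.2 hzs
    have h1 : Zf W z u = g u - (W u : ℂ) := flow_eq hu.1 hg
    by_contra hcon
    push Not at hcon
    have hMu : ∀ v ∈ Icc 0 u, |W v| ≤ M := fun v hv => hM v ⟨hv.1, by linarith [hv.2, hu.2]⟩
    have h2 : ‖g u‖ ≤ M + 1 := by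
      have h3 : g u = Zf W z u + (W u : ℂ) := by rw [h1]; ring
      rw [h3]
      refine (norm_add_le _ _).trans ?_
      rw [Complex.norm_real, Real.norm_eq_abs]
      linarith [hMu u ⟨hu.1, le_rfl⟩]
    have h4 := sol_bound_inv hu.1 hg hMu le_rfl h2
    linarith [hu.2]
  have hmono : MonotoneOn (fun u => (Zf W z u).im * Real.exp (2 * u)) (Icc 0 s) := by
    have hd : ∀ u ∈ Icc 0 s, HasDerivWithinAt (fun u => (Zf W z u).im * Real.exp (2 * u))
        (-(2 * (Zf W z u).im / ‖Zf W z u‖ ^ 2) * Real.exp (2 * u) +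
          (Zf W z u).im * (Real.exp (2 * u) * 2)) (Icc 0 s) u := fun u hu =>
      (Y_hasDeriv hzs hu).mul (((hasDerivAt_id u).const_mul 2).exp.hasDerivWithinAt.congr_deriv
        (by simp))
    refine monotoneOn_of_deriv_nonneg (convex_Icc 0 s)
      (fun u hu => (hd u hu).continuousWithinAt) ?_ ?_
    · intro u hu
      rw [interior_Icc] at hu
      exact ((hd u (Ioo_subset_Icc_self hu)).hasDerivAt
        (Icc_mem_nhds hu.1 hu.2)).differentiableAt.differentiableWithinAt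
    · intro u hu
      rw [interior_Icc] at hu
      have hu' := Ioo_subset_Icc_self hu
      rw [((hd u hu').hasDerivAt (Icc_mem_nhds hu.1 hu.2)).deriv]
      have h1 := hbig u hu'
      have h2 : 0 < (Zf W z u).im := Zf_im_pos hu'.1 (dom_mono hu'.2 hzs)
      have h3 : 2 * (Zf W z u).im / ‖Zf W z u‖ ^ 2 ≤ 2 * (Zf W z u).im := by
        refine div_le_self (by positivity) ?_
        nlinarith
      have h4 : 0 < Real.exp (2 * u) := Real.exp_pos _
      nlinarith [mul_nonneg (sub_nonneg.2 h3) h4.le]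
  have h1 := hmono ⟨le_rfl, hs⟩ ⟨hs, le_rfl⟩ hs
  have e0 : (Zf W z 0).im = z.im := by rw [Zf_zero hz]; simp
  simp only [e0, mul_zero, Real.exp_zero, mul_one] at h1
  have h2 : z.im * Real.exp (-(2 * T)) ≤ z.im * Real.exp (-(2 * s)) :=
    mul_le_mul_of_nonneg_left (Real.exp_le_exp.2 (by linarith)) hz.le
  refine h2.trans ?_
  rw [Real.exp_neg, ← div_eq_mul_inv, div_le_iff₀ (Real.exp_pos _)]
  exact h1

end Vale.Agent.P153.R2.DET
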