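import Vale.Agent.P153.R2.ARCX.Defs
import Vale.Agent.P153.R2.Final.Defs

/-!
# P153, block DET: the deterministic limit theorem (statement)

Curves `X n` in domains with uniformizers `ψ n`, which are the images of simple curves of the
half-plane generating the Loewner chains of `Wn n`, their capacity parametrisations `Gn n`.
If `X n → η`, `Wn n → W`, `ψ n → ψ` and `W` swallows nothing, then `W` is generated by a simple
trace and `Gn n` converges to the image of the trace.
-/

open Set Filter Topology Metric Vale.Agent.P164 Bornology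

namespace Vale.Agent.P153.R2.DET

open Vale.Agent.P153.R2.ARCX

/-- the closed half-plane -/
def HC : Set ℂ := {z | 0 ≤ z.im}

/-- `ψ` is an embedding of the closed half-plane, with the point at infinity going to `b` -/
structure Uni (ψ : ℂ → ℂ) (b : ℂ) : Prop where
  cont : ContinuousOn ψ HC
  inj : InjOn ψ HC
  inf : Tendsto ψ (cobounded ℂ ⊓ 𝓟 HC) (𝓝 b)
  ne : ∀ z ∈ HC, ψ z ≠ b

/-- `G` is the capacity parametrisation of `X` seen from the half-plane through `ψ`, and `W` is the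
driver: `X t = ψ (x t)`, `x` generates the chain of `W` with time change `c`, and
`X = G ∘ r` with `r = c / (1 + c)` -/
def CapParam (ψ : ℂ → ℂ) (W : ℝ → ℝ) (X G : C(unitInterval, ℂ)) : Prop :=
  ∃ (x : ℝ → ℂ) (c : ℝ → ℝ) (r : C(unitInterval, unitInterval)), SGen W x c 1 ∧ StrictMono r ∧
    Function.Surjective r ∧ X = G.comp r ∧
    ∀ t : unitInterval, (t : ℝ) < 1 → X t = ψ (x t) ∧ (r t : ℝ) = c t / (1 + c t)

/-- the deterministic limit theorem -/
def S_det : Prop := ∀ (ψn : ℕ → ℂ → ℂ) (ψ : ℂ → ℂ) (b : ℂ) (Wn : ℕ → ℝ → ℝ) (W : ℝ → ℝ)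
    (Xn Gn : ℕ → C(unitInterval, ℂ)) (η : C(unitInterval, ℂ)),
    Uni ψ b → TendstoUniformlyOn ψn ψ atTop HC → (∀ n, Continuous (Wn n)) → Continuous W →
    (∀ n, CapParam (ψn n) (Wn n) (Xn n) (Gn n)) →
    (∀ t : ℝ, TendstoUniformlyOn Wn W atTop (Icc 0 t)) → Tendsto Xn atTop (𝓝 η) →
    (∀ s t : unitInterval, s ≤ t → η s = b → η t = b) → η 1 = b →
    NoSwallowR W → NoSwallowH W →
    ∃ (γ : ℝ → ℂ) (G : C(unitInterval, ℂ)), Final.IsSimpleTrace W γ ∧ G 1 = b ∧
      (∀ t : unitInterval, (t : ℝ) < 1 → G t = ψ (γ (t / (1 - t)))) ∧ Tendsto Gn atTop (𝓝 G)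

end Vale.Agent.P153.R2.DET
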