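import Vale.Agent.P153.R2.DET.Defs

/-!
# P153, block DET: the deterministic limit theorem, when the discrete curves generate only up to a
time after which they stay near the end point
-/

open Set Filter Topology Metric Vale.Agent.P164 Bornology

namespace Vale.Agent.P153.R2.DET

open Vale.Agent.P153.R2.ARCX

/-- `X t = ψ (x t)` for `t < T`, `x` generates the chain of `W` on `[0, T)` with time change `c`,
`X = G ∘ r` with `r = c / (1 + c)` on `[0, T₀]`, and `X` stays within `ε` of `b` after `T₀ < T` -/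
def CapD (ψ : ℂ → ℂ) (b : ℂ) (ε : ℝ) (W : ℝ → ℝ) (X G : C(unitInterval, ℂ)) : Prop :=
  ∃ (x : ℝ → ℂ) (c : ℝ → ℝ) (r : C(unitInterval, unitInterval)) (T₀ T : ℝ), 0 < T₀ ∧ T₀ < T ∧
    T ≤ 1 ∧ SGen W x c T ∧ StrictMono r ∧ Function.Surjective r ∧ X = G.comp r ∧
    (∀ t : unitInterval, (t : ℝ) < T → X t = ψ (x t)) ∧
    (∀ t : unitInterval, (t : ℝ) ≤ T₀ → (r t : ℝ) = c t / (1 + c t)) ∧
    ∀ t : unitInterval, T₀ ≤ (t : ℝ) → dist (X t) b ≤ ε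

/-- the deterministic limit theorem -/
def S_detD : Prop := ∀ (ψn : ℕ → ℂ → ℂ) (ψ : ℂ → ℂ) (bn : ℕ → ℂ) (b : ℂ) (εn : ℕ → ℝ)
    (Wn : ℕ → ℝ → ℝ) (W : ℝ → ℝ) (Xn Gn : ℕ → C(unitInterval, ℂ)) (η : C(unitInterval, ℂ)),
    Uni ψ b → TendstoUniformlyOn ψn ψ atTop HC → Tendsto bn atTop (𝓝 b) →
    Tendsto εn atTop (𝓝 0) → (∀ n, Continuous (Wn n)) → Continuous W →
    (∀ n, CapD (ψn n) (bn n) (εn n) (Wn n) (Xn n) (Gn n)) →
    (∀ t : ℝ, TendstoUniformlyOn Wn W atTop (Icc 0 t)) → Tendsto Xn atTop (𝓝 η) →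
    (∀ s t : unitInterval, s ≤ t → η s = b → η t = b) →
    NoSwallowR W → NoSwallowH W →
    ∃ (γ : ℝ → ℂ) (G : C(unitInterval, ℂ)), Final.IsSimpleTrace W γ ∧ G 1 = b ∧
      (∀ t : unitInterval, (t : ℝ) < 1 → G t = ψ (γ (t / (1 - t)))) ∧ Tendsto Gn atTop (𝓝 G)

end Vale.Agent.P153.R2.DET
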