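import Vale.Agent.P153.R2.DET.Uni
import Vale.Agent.P153.R2.DET.Bdd
import Vale.Agent.P153.R2.HULL.Main
import Vale.Agent.P153.R2.ARCX.ArcThm

/-!
# P153, block DET: the deterministic limit theorem, from `S_nb`
-/

open Set Filter Topology Metric Vale.Agent.P164 Bornology

namespace Vale.Agent.P153.R2.DET

open Vale.Agent.P153.R2.ARCX

/-- continuous convergence on the interval -/
theorem contconv {Gn : ℕ → C(unitInterval, ℂ)} {G : unitInterval → ℂ}
    (h : ∀ s, Tendsto (fun p : ℕ × unitInterval => Gn p.1 p.2) (atTop ×ˢ 𝓝 s) (𝓝 (G s))) :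
    ∃ G' : C(unitInterval, ℂ), ⇑G' = G ∧ Tendsto Gn atTop (𝓝 G') := by
  have hp : ∀ s, Tendsto (fun n => Gn n s) atTop (𝓝 (G s)) := fun s =>
    (h s).comp (tendsto_id.prodMk (tendsto_const_nhds (x := s)))
  have hc : Continuous G := by
    rw [continuous_iff_continuousAt]
    intro s
    rw [ContinuousAt, Metric.tendsto_nhds]
    intro ε hε
    have h1 : ∀ᶠ p : ℕ × unitInterval in atTop ×ˢ 𝓝 s, dist (Gn p.1 p.2) (G s) < ε / 2 :=
      (Metric.tendsto_nhds.1 (h s)) (ε / 2) (by positivity)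
    obtain ⟨pa, hpa, pb, hpb, hab⟩ := eventually_prod_iff.1 h1
    filter_upwards [hpb] with y hy
    have h2 : dist (G y) (G s) ≤ ε / 2 := by
      refine le_of_tendsto ((hp y).dist tendsto_const_nhds) ?_
      filter_upwards [hpa] with n hn
      exact (hab hn hy).le
    linarith
  refine ⟨⟨G, hc⟩, rfl, ?_⟩
  rw [ContinuousMap.tendsto_iff_tendstoLocallyUniformly, tendstoLocallyUniformly_iff_forall_tendsto]
  intro s
  have h1 : Tendsto (fun p : ℕ × unitInterval => (G p.2, Gn p.1 p.2)) (atTop ×ˢ 𝓝 s)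
      (𝓝 (G s, G s)) :=
    (((hc.tendsto s).comp tendsto_snd)).prodMk_nhds (h s)
  exact h1.mono_right (nhds_le_uniformity _)

theorem sgen_restrict {W : ℝ → ℝ} {x : ℝ → ℂ} {c : ℝ → ℝ} {S T : ℝ} (h : SGen W x c S)
    (hT : 0 < T) (hTS : T ≤ S) : SGen W x c T := by
  have hsub : Ico 0 T ⊆ Ico 0 S := Ico_subset_Ico_right hTS
  exact ⟨hT, h.cont.mono hsub, h.inj.mono hsub, fun t ht => h.im_pos t ⟨ht.1, ht.2.trans_le hTS⟩,
    h.start, h.contc.mono hsub, h.mono.mono hsub, h.c_zero, fun t ht => h.dom t (hsub ht)⟩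

theorem sgen_mem_HC {W : ℝ → ℝ} {x : ℝ → ℂ} {c : ℝ → ℝ} {S : ℝ} (h : SGen W x c S) {t : ℝ}
    (ht : t ∈ Ico 0 S) : x t ∈ HC := by
  rcases eq_or_lt_of_le ht.1 with h0 | h0
  · rw [← h0, h.start]
    show (0 : ℝ) ≤ ((W 0 : ℂ)).im
    simp
  · exact (h.im_pos t ⟨h0, ht.2⟩).le

theorem isSimpleTrace_of_arc {W : ℝ → ℝ} {x : ℝ → ℂ} {c : ℝ → ℝ} {T : ℝ} {γ : ℝ → ℂ}
    (h : Arc W x c T γ) (hS : c '' Ico 0 T = Ici 0) : Final.IsSimpleTrace W γ := by
  have hmem : ∀ s : ℝ, 0 ≤ s → s ∈ c '' Ico 0 T := fun s hs => by rw [hS]; exact hs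
  refine ⟨hS ▸ h.cont, hS ▸ h.inj, h.start, fun t ht => h.im_pos t (hmem t ht.le) ht, ?_⟩
  intro t ht
  have h1 := h.dom t (hmem t ht)
  have h2 : Final.loewnerDomain W t = loewnerDomain W t := rfl
  rw [h2, h1]
  ext z
  constructor
  · rintro ⟨hz, hz'⟩
    exact ⟨hz, fun hcon => hz' (image_mono Ioc_subset_Icc_self hcon)⟩
  · rintro ⟨hz, hz'⟩
    refine ⟨hz, ?_⟩
    rintro ⟨s, hs, rfl⟩
    rcases eq_or_lt_of_le hs.1 with h0 | h0
    · rw [← h0, h.start] at hz
      simp at hz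
    · exact hz' ⟨s, ⟨h0, hs.2⟩, rfl⟩

theorem s_det_of_nb (hnb : S_nb) : S_det := by
  intro ψn ψ b Wn W Xn Gn η hψ hu hWnc hWc hcp hWn hX hend hη1 hR hH
  choose xs cs rs hsg hrm hrs hXG hXr using hcp
  set e : ℝ → unitInterval := projIcc 0 1 zero_le_one with he
  have hec : Continuous e := continuous_projIcc
  have hee : ∀ t (h0 : 0 ≤ t) (h1 : t ≤ 1), e t = ⟨t, h0, h1⟩ := fun t h0 h1 =>
    projIcc_of_mem zero_le_one ⟨h0, h1⟩
  have heI : ∀ t : unitInterval, e t = t := fun t => projIcc_val _ _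
  -- the first time at which the limit reaches `b`
  set S : Set ℝ := {t | t ∈ Icc (0 : ℝ) 1 ∧ η (e t) = b} with hS
  have hηc : Continuous fun t => η (e t) := η.continuous.comp hec
  have hScl : IsClosed S := isClosed_Icc.inter (isClosed_eq hηc continuous_const)
  have h1S : (1 : ℝ) ∈ S := by
    refine ⟨by simp, ?_⟩
    rw [hee 1 zero_le_one le_rfl]
    exact hη1
  have hSbb : BddBelow S := ⟨0, fun t ht => ht.1.1⟩
  set T : ℝ := sInf S with hT
  have hTS : T ∈ S := hScl.csInf_mem ⟨1, h1S⟩ hSbb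
  have hT1 : T ≤ 1 := hTS.1.2
  have hT0 : 0 ≤ T := hTS.1.1
  have hlt : ∀ t ∈ Ico 0 T, η (e t) ≠ b := fun t ht hcon =>
    notMem_of_lt_csInf ht.2 hSbb ⟨⟨ht.1, ht.2.le.trans hT1⟩, hcon⟩
  have hge : ∀ t ∈ Icc T 1, η (e t) = b := by
    intro t ht
    refine hend (e T) (e t) (monotone_projIcc _ ht.1) hTS.2
  -- convergence of the preimages
  have conv : ∀ {ι : Type} (l : Filter ι) (k : ι → ℕ) (τ : ι → ℝ) (t : ℝ), Tendsto k l atTop →
      (∀ᶠ i in l, τ i ∈ Ico (0 : ℝ) 1) → Tendsto τ l (𝓝 t) →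
      Tendsto (fun i => ψ (xs (k i) (τ i))) l (𝓝 (η (e t))) := by
    intro ι l k τ t hk hτ hτt
    have h1 : Tendsto (fun i => Xn (k i) (e (τ i))) l (𝓝 (η (e t))) := by
      have h2 : Tendsto (fun i => (Xn (k i), e (τ i))) l (𝓝 (η, e t)) :=
        (hX.comp hk).prodMk_nhds ((hec.tendsto t).comp hτt)
      exact (continuous_eval.tendsto (η, e t)).comp h2
    have h3 : Tendsto (fun i => dist (ψ (xs (k i) (τ i))) (Xn (k i) (e (τ i)))) l (𝓝 0) := by
      rw [Metric.tendsto_nhds]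
      intro ε hε
      filter_upwards [hk.eventually (Metric.tendstoUniformlyOn_iff.1 hu ε hε), hτ] with i hi hi'
      have h4 := (hXr (k i) (e (τ i)) (by rw [hee _ hi'.1 hi'.2.le]; exact hi'.2)).1
      rw [h4, hee _ hi'.1 hi'.2.le]
      rw [Real.dist_eq, sub_zero, abs_of_nonneg dist_nonneg]
      exact hi _ (sgen_mem_HC (hsg (k i)) hi')
    exact (tendsto_iff_of_dist h3).2 h1
  have hxsHC : ∀ n, ∀ t ∈ Ico (0 : ℝ) 1, xs n t ∈ HC := fun n t ht => sgen_mem_HC (hsg n) ht
  have hx : ∀ t : ℝ, ∃ y : ℂ, t ∈ Ico 0 T → y ∈ HC ∧ ψ y = η (e t) := by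
    intro t
    by_cases ht : t ∈ Ico 0 T
    · have ht1 : t ∈ Ico (0 : ℝ) 1 := ⟨ht.1, ht.2.trans_le hT1⟩
      obtain ⟨y, hy, hy'⟩ := hψ.exists (l := (atTop : Filter ℕ)) (u := fun n => xs n t)
        (Eventually.of_forall fun n => hxsHC n t ht1) (hlt t ht)
        (conv atTop id (fun _ => t) t tendsto_id (Eventually.of_forall fun _ => ht1)
          tendsto_const_nhds)
      exact ⟨y, fun _ => ⟨hy, hy'⟩⟩
    · exact ⟨0, fun h => absurd h ht⟩
  choose x hx using hx
  have xconv : ∀ {ι : Type} (l : Filter ι) (k : ι → ℕ) (τ : ι → ℝ) (t : ℝ), t ∈ Ico 0 T →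
      Tendsto k l atTop → (∀ᶠ i in l, τ i ∈ Ico (0 : ℝ) 1) → Tendsto τ l (𝓝 t) →
      Tendsto (fun i => xs (k i) (τ i)) l (𝓝 (x t)) := by
    intro ι l k τ t ht hk hτ hτt
    refine hψ.tendsto ?_ (hx t ht).1 ?_
    · filter_upwards [hτ] with i hi
      exact hxsHC _ _ hi
    · rw [(hx t ht).2]
      exact conv l k τ t hk hτ hτt
  have hxc : ContinuousOn x (Ico 0 T) := by
    intro t ht
    refine hψ.tendsto ?_ (hx t ht).1 ?_
    · filter_upwards [self_mem_nhdsWithin] with u hu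
      exact (hx u hu).1
    · rw [(hx t ht).2]
      refine ((hηc.tendsto t).mono_left nhdsWithin_le_nhds).congr' ?_
      filter_upwards [self_mem_nhdsWithin] with u hu
      exact (hx u hu).2.symm
  -- the limit reaches `b` at a positive time
  have hTpos : 0 < T := by
    refine lt_of_le_of_ne hT0 fun hcon => ?_
    have h1 : Tendsto (fun n => ψ (xs n 0)) atTop (𝓝 (η (e 0))) :=
      conv atTop id (fun _ => 0) 0 tendsto_id
        (Eventually.of_forall fun _ => ⟨le_rfl, one_pos⟩) tendsto_const_nhds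
    have h2 : Tendsto (fun n => xs n 0) atTop (𝓝[HC] (W 0 : ℂ)) := by
      refine tendsto_nhdsWithin_iff.2 ⟨?_, Eventually.of_forall fun n =>
        hxsHC n 0 ⟨le_rfl, one_pos⟩⟩
      have h3 : Tendsto (fun n => Wn n 0) atTop (𝓝 (W 0)) :=
        (hWn 0).tendsto_at ⟨le_rfl, le_rfl⟩
      have h4 : (fun n => xs n 0) = fun n => ((Wn n 0 : ℝ) : ℂ) := funext fun n => (hsg n).start
      rw [h4]
      exact (Complex.continuous_ofReal.tendsto _).comp h3
    have hW0 : (W 0 : ℂ) ∈ HC := by show (0 : ℝ) ≤ ((W 0 : ℂ)).im; simp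
    have h5 := (hψ.cont _ hW0).tendsto.comp h2
    have h6 : ψ (W 0 : ℂ) = η (e 0) := tendsto_nhds_unique h5 h1
    refine hψ.ne _ hW0 ?_
    rw [h6, hcon]
    exact hTS.2
  have hA : Appr Wn xs cs W x T := by
    refine ⟨hWnc, hWc, fun n => sgen_restrict (hsg n) hTpos hT1, hWn, fun t ht => ?_⟩
    rw [← tendstoLocallyUniformlyOn_iff_tendstoUniformlyOn_of_compact isCompact_Icc,
      tendstoLocallyUniformlyOn_iff_forall_tendsto]
    intro u hu
    have huT : u ∈ Ico 0 T := ⟨hu.1, hu.2.trans_lt ht.2⟩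
    have hin : ∀ᶠ p : ℕ × ℝ in atTop ×ˢ 𝓝[Icc 0 t] u, p.2 ∈ Icc 0 t :=
      tendsto_snd.eventually self_mem_nhdsWithin
    have h1 : Tendsto (fun p : ℕ × ℝ => xs p.1 p.2) (atTop ×ˢ 𝓝[Icc 0 t] u) (𝓝 (x u)) := by
      refine xconv _ Prod.fst Prod.snd u huT tendsto_fst ?_
        (tendsto_snd.mono_right nhdsWithin_le_nhds)
      filter_upwards [hin] with p hp
      exact ⟨hp.1, hp.2.trans_lt (ht.2.trans_le hT1)⟩
    have h2 : Tendsto (fun p : ℕ × ℝ => x p.2) (atTop ×ˢ 𝓝[Icc 0 t] u) (𝓝 (x u)) :=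
      ((hxc u huT).mono fun v hv => ⟨hv.1, hv.2.trans_lt ht.2⟩).tendsto.comp tendsto_snd
    exact (h2.prodMk_nhds h1).mono_right (nhds_le_uniformity _)
  obtain ⟨c, hgen, hcn⟩ := HULL.s_hull Wn xs cs W x T hA hxc
  obtain ⟨γ, harc⟩ := s_arc W x c T hWc hR hH hgen
  have hxγ := hnb Wn xs cs W x c T γ hA hgen hcn harc
  have hc0 : ∀ t ∈ Ico 0 T, 0 ≤ c t := by
    intro t ht
    have := hgen.mono ⟨le_rfl, hTpos⟩ ht ht.1
    rwa [hgen.c_zero] at this
  -- the capacity is unbounded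
  have hunb : ∀ M : ℝ, ∃ t ∈ Ico 0 T, M < c t := by
    by_contra hcon
    push Not at hcon
    obtain ⟨M, hM⟩ := hcon
    have hM0 : 0 ≤ M := (hc0 0 ⟨le_rfl, hTpos⟩).trans (hM 0 ⟨le_rfl, hTpos⟩)
    obtain ⟨R, hR'⟩ := exists_bdd hWc hM0
    have hxb : ∀ t ∈ Ico 0 T, ‖x t‖ ≤ max R |W 0| := by
      intro t ht
      rw [hxγ t ht]
      have hct : c t ∈ c '' Ico 0 T := ⟨t, ht, rfl⟩
      rcases eq_or_lt_of_le (hc0 t ht) with h0 | h0
      · rw [← h0, harc.start, Complex.norm_real, Real.norm_eq_abs]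
        exact le_max_right _ _
      · refine le_trans ?_ (le_max_left _ _)
        by_contra hcon
        push Not at hcon
        have h1 := dom_mono (hM t ht) (hR' _ (harc.im_pos _ hct h0) hcon)
        rw [harc.dom _ hct] at h1
        exact h1.2 ⟨c t, ⟨h0.le, le_rfl⟩, rfl⟩
    set U := Ultrafilter.of (𝓝[<] T) with hU
    have hUl : (U : Filter ℝ) ≤ 𝓝[<] T := Ultrafilter.of_le _
    have hev : ∀ᶠ t in (U : Filter ℝ), t ∈ Ico 0 T :=
      hUl (mem_of_superset (Ioo_mem_nhdsLT hTpos) Ioo_subset_Ico_self)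
    have hK : IsCompact (closedBall (0 : ℂ) (max R |W 0|) ∩ HC) :=
      (isCompact_closedBall _ _).inter_right isClosed_HC
    obtain ⟨y, hy, hyU⟩ := hK.ultrafilter_le_nhds (U.map x) (le_principal_iff.2 (by
      rw [Ultrafilter.mem_coe, Ultrafilter.mem_map]
      filter_upwards [hev] with t ht
      exact ⟨by rw [mem_closedBall_zero_iff]; exact hxb t ht, (hx t ht).1⟩))
    have h1 : Tendsto x U (𝓝[HC] y) := by
      refine tendsto_nhdsWithin_iff.2 ⟨hyU, ?_⟩
      filter_upwards [hev] with t ht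
      exact (hx t ht).1
    have h2 : Tendsto (fun t => ψ (x t)) U (𝓝 (ψ y)) := (hψ.cont y hy.2).tendsto.comp h1
    have h3 : Tendsto (fun t => ψ (x t)) U (𝓝 b) := by
      have h4 : Tendsto (fun t => η (e t)) U (𝓝 (η (e T))) :=
        (hηc.tendsto T).mono_left (hUl.trans nhdsWithin_le_nhds)
      rw [hTS.2] at h4
      refine h4.congr' ?_
      filter_upwards [hev] with t ht
      exact (hx t ht).2.symm
    exact hψ.ne y hy.2 (tendsto_nhds_unique h2 h3)
  have hcimg : c '' Ico 0 T = Ici 0 := by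
    apply Subset.antisymm
    · rintro _ ⟨t, ht, rfl⟩
      exact hc0 t ht
    · intro s hs
      obtain ⟨t, ht, hst⟩ := hunb s
      have h1 := intermediate_value_Icc ht.1 (hgen.contc.mono
        (fun v hv => ⟨hv.1, hv.2.trans_lt ht.2⟩ : Icc 0 t ⊆ Ico 0 T))
      rw [hgen.c_zero] at h1
      obtain ⟨v, hv, hvs⟩ := h1 ⟨hs, hst.le⟩
      exact ⟨v, ⟨hv.1, hv.2.trans_lt ht.2⟩, hvs⟩
  have htr := isSimpleTrace_of_arc harc hcimg
  -- convergence of the capacity parametrisations
  set G : unitInterval → ℂ := fun s => if (s : ℝ) < 1 then ψ (γ ((s : ℝ) / (1 - s))) else b with hG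
  have hrn : ∀ t ∈ Ico 0 T, Tendsto (fun n => ((rs n (e t) : unitInterval) : ℝ)) atTop
      (𝓝 (c t / (1 + c t))) := by
    intro t ht
    have ht1 : t < 1 := ht.2.trans_le hT1
    have h1 : ∀ n, ((rs n (e t) : unitInterval) : ℝ) = cs n t / (1 + cs n t) := by
      intro n
      have h2 := (hXr n (e t) (by rw [hee t ht.1 ht1.le]; exact ht1)).2
      rw [h2, hee t ht.1 ht1.le]
    simp only [h1]
    have h3 := hcn t ht
    have h4 := hc0 t ht
    exact h3.div (tendsto_const_nhds.add h3) (by positivity)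
  obtain ⟨G', hG', hlim⟩ := contconv (Gn := Gn) (G := G) (by
    intro s
    rw [tendsto_iff_ultrafilter]
    intro U hU
    have hU1 : Tendsto (Prod.fst : ℕ × unitInterval → ℕ) U atTop := tendsto_fst.mono_left hU
    have hU2 : Tendsto (Prod.snd : ℕ × unitInterval → unitInterval) U (𝓝 s) :=
      tendsto_snd.mono_left hU
    have hU2' : Tendsto (fun p : ℕ × unitInterval => (p.2 : ℝ)) U (𝓝 (s : ℝ)) :=
      (continuous_subtype_val.tendsto s).comp hU2
    choose tp htp using fun p : ℕ × unitInterval => hrs p.1 p.2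
    obtain ⟨ts, -, hts⟩ := isCompact_univ.ultrafilter_le_nhds (U.map tp) (by simp)
    have htst : Tendsto tp U (𝓝 ts) := hts
    have h1 : Tendsto (fun p : ℕ × unitInterval => Gn p.1 p.2) U (𝓝 (η ts)) := by
      have h2 : (fun p : ℕ × unitInterval => Gn p.1 p.2) = fun p => Xn p.1 (tp p) := by
        funext p
        rw [hXG p.1]
        show Gn p.1 p.2 = Gn p.1 (rs p.1 (tp p))
        rw [htp]
      rw [h2]
      have h3 : Tendsto (fun p : ℕ × unitInterval => (Xn p.1, tp p)) U (𝓝 (η, ts)) :=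
        (hX.comp hU1).prodMk_nhds htst
      exact (continuous_eval.tendsto (η, ts)).comp h3
    -- comparison
    have hlo : ∀ t ∈ Ico 0 T, t < ts → c t / (1 + c t) ≤ s := by
      intro t ht htt
      have ht1 : t < 1 := ht.2.trans_le hT1
      refine le_of_tendsto_of_tendsto ((hrn t ht).comp hU1) hU2' ?_
      have h4 : ∀ᶠ p in (U : Filter (ℕ × unitInterval)), e t < tp p := by
        refine htst.eventually (lt_mem_nhds ?_)
        rw [hee t ht.1 ht1.le]
        exact htt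
      filter_upwards [h4] with p hp
      have h5 := (hrm p.1) hp
      rw [htp] at h5
      exact_mod_cast h5.le
    have hhi : ∀ t ∈ Ico 0 T, ts < t → (s : ℝ) ≤ c t / (1 + c t) := by
      intro t ht htt
      have ht1 : t < 1 := ht.2.trans_le hT1
      refine le_of_tendsto_of_tendsto hU2' ((hrn t ht).comp hU1) ?_
      have h4 : ∀ᶠ p in (U : Filter (ℕ × unitInterval)), tp p < e t := by
        refine htst.eventually (gt_mem_nhds ?_)
        rw [hee t ht.1 ht1.le]
        exact htt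
      filter_upwards [h4] with p hp
      have h5 := (hrm p.1) hp
      rw [htp] at h5
      exact_mod_cast h5.le
    have hrlt : ∀ t ∈ Ico 0 T, c t / (1 + c t) < 1 := by
      intro t ht
      have := hc0 t ht
      rw [div_lt_one (by positivity)]
      linarith
    have key : η ts = G s := by
      by_cases hs1 : (s : ℝ) < 1
      · have hGs : G s = ψ (γ ((s : ℝ) / (1 - s))) := by simp only [hG, if_pos hs1]
        have htsT : (ts : ℝ) < T := by
          by_contra hcon
          push Not at hcon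
          obtain ⟨t, ht, htM⟩ := hunb ((s : ℝ) / (1 - s))
          have h4 := hlo t ht (ht.2.trans_le hcon)
          have h5 := hc0 t ht
          have h6 : 0 < 1 - (s : ℝ) := by linarith
          rw [div_lt_iff₀ h6] at htM
          rw [div_le_iff₀ (by positivity)] at h4
          nlinarith
        have htsI : (ts : ℝ) ∈ Ico 0 T := ⟨ts.2.1, htsT⟩
        have hrc : ContinuousWithinAt (fun t => c t / (1 + c t)) (Ico 0 T) ts :=
          (hgen.contc _ htsI).div (continuousWithinAt_const.add (hgen.contc _ htsI))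
            (by have := hc0 _ htsI; positivity)
        have hle : c ts / (1 + c ts) ≤ s := by
          rcases eq_or_lt_of_le ts.2.1 with h0 | h0
          · rw [← h0, hgen.c_zero]
            simpa using s.2.1
          · have h7 : Tendsto (fun t => c t / (1 + c t)) (𝓝[<] (ts : ℝ))
                (𝓝 (c ts / (1 + c ts))) := by
              refine hrc.tendsto.mono_left (nhdsWithin_le_of_mem ?_)
              exact mem_of_superset (Ioo_mem_nhdsLT h0) fun v hv => ⟨hv.1.le, hv.2.trans htsT⟩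
            refine le_of_tendsto h7 ?_
            filter_upwards [Ioo_mem_nhdsLT h0] with v hv
            exact hlo v ⟨hv.1.le, hv.2.trans htsT⟩ hv.2
        have hge' : (s : ℝ) ≤ c ts / (1 + c ts) := by
          have h7 : Tendsto (fun t => c t / (1 + c t)) (𝓝[>] (ts : ℝ))
              (𝓝 (c ts / (1 + c ts))) := by
            refine hrc.tendsto.mono_left (nhdsWithin_le_of_mem ?_)
            exact mem_of_superset (Ioo_mem_nhdsGT htsT) fun v hv =>
              ⟨ts.2.1.trans hv.1.le, hv.2⟩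
          refine ge_of_tendsto h7 ?_
          filter_upwards [Ioo_mem_nhdsGT htsT] with v hv
          exact hhi v ⟨ts.2.1.trans hv.1.le, hv.2⟩ hv.1
        have heq : (s : ℝ) = c ts / (1 + c ts) := le_antisymm hge' hle
        have hcs : (s : ℝ) / (1 - s) = c ts := by
          have h5 := hc0 _ htsI
          rw [heq]
          field_simp
          ring
        rw [hGs, hcs, ← hxγ _ htsI, (hx _ htsI).2, heI]
      · have hs1' : (s : ℝ) = 1 := le_antisymm s.2.2 (not_lt.1 hs1)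
        have hGs : G s = b := by simp only [hG, if_neg hs1]
        rw [hGs]
        have htsT : T ≤ (ts : ℝ) := by
          by_contra hcon
          push Not at hcon
          obtain ⟨v, hv1, hv2⟩ := exists_between hcon
          have hvI : v ∈ Ico 0 T := ⟨ts.2.1.trans hv1.le, hv2⟩
          have h4 := hhi v hvI hv1
          rw [hs1'] at h4
          exact absurd (hrlt v hvI) (not_lt.2 h4)
        have h5 := hge ts ⟨htsT, ts.2.2⟩
        rwa [heI] at h5
    rw [← key]
    exact h1)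
  refine ⟨γ, G', htr, ?_, ?_, hlim⟩
  · rw [hG']
    simp [hG]
  · intro t ht
    rw [hG']
    simp only [hG, if_pos ht]

end Vale.Agent.P153.R2.DET
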