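import Vale.Agent.P153.R2.DET.UniD
import Vale.Agent.P153.R2.DET.Main
import Vale.Agent.P153.R2.ARCX.Nb

/-!
# P153, block DET: the deterministic limit theorem in the form `S_detD`
-/

open Set Filter Topology Metric Vale.Agent.P164 Bornology

namespace Vale.Agent.P153.R2.DET

open Vale.Agent.P153.R2.ARCX

theorem gen_congr {W : ℝ → ℝ} {x : ℝ → ℂ} {c c' : ℝ → ℝ} {T : ℝ} (h : Gen W x c T)
    (hc : EqOn c' c (Ico 0 T)) : Gen W x c' T := by
  refine ⟨h.pos, h.cont, h.im_nonneg, h.start, h.contc.congr hc, ?_, ?_, ?_⟩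
  · intro s hs t ht hst
    rw [hc hs, hc ht]
    exact h.mono hs ht hst
  · rw [hc ⟨le_rfl, h.pos⟩, h.c_zero]
  · intro t ht
    rw [hc ht]
    exact h.dom t ht

theorem gen_of_forall {W : ℝ → ℝ} {x : ℝ → ℂ} {c : ℝ → ℝ} {T : ℝ} (hT : 0 < T)
    (h : ∀ L ∈ Ioo 0 T, Gen W x c L) : Gen W x c T := by
  have hL : ∀ t ∈ Ico 0 T, ∃ L ∈ Ioo 0 T, t ∈ Ico 0 L := fun t ht =>
    ⟨(t + T) / 2, ⟨by linarith [ht.1, ht.2], by linarith [ht.2]⟩, ht.1, by linarith [ht.2]⟩
  have hnhds : ∀ L : ℝ, ∀ t ∈ Ico 0 L, Ico 0 L ∈ 𝓝[Ico 0 T] t := by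
    intro L t ht
    rw [mem_nhdsWithin]
    exact ⟨Iio L, isOpen_Iio, ht.2, fun s hs => ⟨hs.2.1, hs.1⟩⟩
  obtain ⟨L₀, hL₀, hL₀0⟩ := hL 0 ⟨le_rfl, hT⟩
  refine ⟨hT, ?_, ?_, (h L₀ hL₀).start, ?_, ?_, (h L₀ hL₀).c_zero, ?_⟩
  · intro t ht
    obtain ⟨L, hLI, htL⟩ := hL t ht
    exact ((h L hLI).cont t htL).mono_of_mem_nhdsWithin (hnhds L t htL)
  · intro t ht
    obtain ⟨L, hLI, htL⟩ := hL t ht
    exact (h L hLI).im_nonneg t htL
  · intro t ht
    obtain ⟨L, hLI, htL⟩ := hL t ht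
    exact ((h L hLI).contc t htL).mono_of_mem_nhdsWithin (hnhds L t htL)
  · intro s hs t ht hst
    obtain ⟨L, hLI, htL⟩ := hL t ht
    exact (h L hLI).mono ⟨hs.1, hst.trans_lt htL.2⟩ htL hst
  · intro t ht
    obtain ⟨L, hLI, htL⟩ := hL t ht
    exact (h L hLI).dom t htL

theorem arc_restrict {W : ℝ → ℝ} {x : ℝ → ℂ} {c : ℝ → ℝ} {T L : ℝ} {γ : ℝ → ℂ}
    (h : Arc W x c T γ) (hLT : L ≤ T) : Arc W x c L γ := by
  have hsub : Ico 0 L ⊆ Ico 0 T := Ico_subset_Ico_right hLT
  have himg : c '' Ico 0 L ⊆ c '' Ico 0 T := image_mono hsub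
  refine ⟨h.cont.mono himg, h.inj.mono himg, fun s hs => h.im_pos s (himg hs), h.start,
    fun s hs => h.dom s (himg hs), ?_, fun t ht => h.mem t (hsub ht)⟩
  intro s hs
  obtain ⟨t, ht, hct, hfirst, hxt⟩ := h.first s (himg hs)
  refine ⟨t, ⟨ht.1, ?_⟩, hct, hfirst, hxt⟩
  obtain ⟨u, hu, hus⟩ := hs
  by_contra hcon
  push Not at hcon
  exact absurd (hfirst u ⟨hu.1, hu.2.trans_le hcon⟩) (by rw [hus]; exact lt_irrefl _)

theorem s_detD : S_detD := by
  intro ψn ψ bn b εn Wn W Xn Gn η hψ hu hbn hεn hWnc hWc hcp hWn hX hend hR hH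
  choose xs cs rs T0s Ts hT0s hT0T hTs1 hsg hrm hrs hXG hXψ hXr hnear using hcp
  set e : ℝ → unitInterval := projIcc 0 1 zero_le_one with he
  have hec : Continuous e := continuous_projIcc
  have hee : ∀ t (h0 : 0 ≤ t) (h1 : t ≤ 1), e t = ⟨t, h0, h1⟩ := fun t h0 h1 =>
    projIcc_of_mem zero_le_one ⟨h0, h1⟩
  have heI : ∀ t : unitInterval, e t = t := fun t => projIcc_val _ _
  have hXp : ∀ t : unitInterval, Tendsto (fun n => Xn n t) atTop (𝓝 (η t)) := fun t =>
    ((continuous_eval_const t).tendsto η).comp hX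
  have hη1 : η 1 = b := by
    have h1 : Tendsto (fun n => dist (Xn n 1) (bn n)) atTop (𝓝 0) :=
      squeeze_zero (fun _ => dist_nonneg)
        (fun n => hnear n 1 (by
          show T0s n ≤ 1
          exact (hT0T n).le.trans (hTs1 n))) hεn
    exact tendsto_nhds_unique (hXp 1) ((tendsto_iff_of_dist h1).2 hbn)
  -- the first time at which the limit reaches `b`
  set S : Set ℝ := {t | t ∈ Icc (0 : ℝ) 1 ∧ η (e t) = b} with hS
  have hηc : Continuous fun t => η (e t) := η.continuous.comp hec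
  have hScl : IsClosed S := isClosed_Icc.inter (isClosed_eq hηc continuous_const)
  have h1S : (1 : ℝ) ∈ S := by
    refine ⟨by simp, ?_⟩
    rw [hee 1 zero_le_one le_rfl]
    exact hη1
  have hSbb : BddBelow S := ⟨0, fun t ht => ht.1.1⟩
  set T : ℝ := sInf S with hT
  have hTS : T ∈ S := hScl.csInf_mem ⟨1, h1S⟩ hSbb
  have hT1 : T ≤ 1 := hTS.1.2
  have hT0 : 0 ≤ T := hTS.1.1
  have hlt : ∀ t ∈ Ico 0 T, η (e t) ≠ b := fun t ht hcon =>
    notMem_of_lt_csInf ht.2 hSbb ⟨⟨ht.1, ht.2.le.trans hT1⟩, hcon⟩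
  have hge : ∀ t ∈ Icc T 1, η (e t) = b := by
    intro t ht
    refine hend (e T) (e t) (monotone_projIcc _ ht.1) hTS.2
  -- the generation times
  have evT : ∀ t ∈ Ico 0 T, ∀ᶠ n in atTop, t < T0s n := by
    intro t ht
    have h1 : Tendsto (fun n => dist (Xn n (e t)) (bn n)) atTop (𝓝 (dist (η (e t)) b)) :=
      (hXp (e t)).dist hbn
    have h2 : 0 < dist (η (e t)) b := dist_pos.2 (hlt t ht)
    have h3 : ∀ᶠ n in atTop, εn n < dist (Xn n (e t)) (bn n) :=
      hεn.eventually_lt h1 h2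
    filter_upwards [h3] with n hn
    by_contra hcon
    push Not at hcon
    have h4 := hnear n (e t) (by rw [hee t ht.1 (ht.2.le.trans hT1)]; exact hcon)
    linarith
  have hxsHC : ∀ n, ∀ t ∈ Ico (0 : ℝ) (Ts n), xs n t ∈ HC := fun n t ht => sgen_mem_HC (hsg n) ht
  -- convergence of the preimages
  have conv : ∀ {ι : Type} (l : Filter ι) (k : ι → ℕ) (τ : ι → ℝ) (t : ℝ), Tendsto k l atTop →
      (∀ᶠ i in l, τ i ∈ Ico (0 : ℝ) (Ts (k i))) → Tendsto τ l (𝓝 t) →
      Tendsto (fun i => ψ (xs (k i) (τ i))) l (𝓝 (η (e t))) := by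
    intro ι l k τ t hk hτ hτt
    have h1 : Tendsto (fun i => Xn (k i) (e (τ i))) l (𝓝 (η (e t))) := by
      have h2 : Tendsto (fun i => (Xn (k i), e (τ i))) l (𝓝 (η, e t)) :=
        (hX.comp hk).prodMk_nhds ((hec.tendsto t).comp hτt)
      exact (continuous_eval.tendsto (η, e t)).comp h2
    have h3 : Tendsto (fun i => dist (ψ (xs (k i) (τ i))) (Xn (k i) (e (τ i)))) l (𝓝 0) := by
      rw [Metric.tendsto_nhds]
      intro ε hε
      filter_upwards [hk.eventually (Metric.tendstoUniformlyOn_iff.1 hu ε hε), hτ] with i hi hi'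
      have hle1 : τ i ≤ 1 := hi'.2.le.trans (hTs1 (k i))
      have h4 := hXψ (k i) (e (τ i)) (by rw [hee _ hi'.1 hle1]; exact hi'.2)
      rw [h4, hee _ hi'.1 hle1]
      rw [Real.dist_eq, sub_zero, abs_of_nonneg dist_nonneg]
      exact hi _ (sgen_mem_HC (hsg (k i)) hi')
    exact (tendsto_iff_of_dist h3).2 h1
  have hx : ∀ t : ℝ, ∃ y : ℂ, t ∈ Ico 0 T → y ∈ HC ∧ ψ y = η (e t) := by
    intro t
    by_cases ht : t ∈ Ico 0 T
    · have hev : ∀ᶠ n in atTop, t ∈ Ico (0 : ℝ) (Ts n) := by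
        filter_upwards [evT t ht] with n hn
        exact ⟨ht.1, hn.trans (hT0T n)⟩
      obtain ⟨y, hy, hy'⟩ := hψ.exists (l := (atTop : Filter ℕ)) (u := fun n => xs n t)
        (hev.mono fun n hn => hxsHC n t hn) (hlt t ht)
        (conv atTop id (fun _ => t) t tendsto_id hev tendsto_const_nhds)
      exact ⟨y, fun _ => ⟨hy, hy'⟩⟩
    · exact ⟨0, fun h => absurd h ht⟩
  choose x hx using hx
  have xconv : ∀ {ι : Type} (l : Filter ι) (k : ι → ℕ) (τ : ι → ℝ) (t : ℝ), t ∈ Ico 0 T →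
      Tendsto k l atTop → (∀ᶠ i in l, τ i ∈ Ico (0 : ℝ) (Ts (k i))) → Tendsto τ l (𝓝 t) →
      Tendsto (fun i => xs (k i) (τ i)) l (𝓝 (x t)) := by
    intro ι l k τ t ht hk hτ hτt
    refine hψ.tendsto ?_ (hx t ht).1 ?_
    · filter_upwards [hτ] with i hi
      exact hxsHC _ _ hi
    · rw [(hx t ht).2]
      exact conv l k τ t hk hτ hτt
  have hxc : ContinuousOn x (Ico 0 T) := by
    intro t ht
    refine hψ.tendsto ?_ (hx t ht).1 ?_
    · filter_upwards [self_mem_nhdsWithin] with u hu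
      exact (hx u hu).1
    · rw [(hx t ht).2]
      refine ((hηc.tendsto t).mono_left nhdsWithin_le_nhds).congr' ?_
      filter_upwards [self_mem_nhdsWithin] with u hu
      exact (hx u hu).2.symm
  -- the limit reaches `b` at a positive time
  have hTpos : 0 < T := by
    refine lt_of_le_of_ne hT0 fun hcon => ?_
    have h1 : Tendsto (fun n => ψ (xs n 0)) atTop (𝓝 (η (e 0))) :=
      conv atTop id (fun _ => 0) 0 tendsto_id
        (Eventually.of_forall fun n => ⟨le_rfl, (hT0s n).trans (hT0T n)⟩) tendsto_const_nhds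
    have h2 : Tendsto (fun n => xs n 0) atTop (𝓝[HC] (W 0 : ℂ)) := by
      refine tendsto_nhdsWithin_iff.2 ⟨?_, Eventually.of_forall fun n =>
        hxsHC n 0 ⟨le_rfl, (hT0s n).trans (hT0T n)⟩⟩
      have h3 : Tendsto (fun n => Wn n 0) atTop (𝓝 (W 0)) :=
        (hWn 0).tendsto_at ⟨le_rfl, le_rfl⟩
      have h4 : (fun n => xs n 0) = fun n => ((Wn n 0 : ℝ) : ℂ) := funext fun n => (hsg n).start
      rw [h4]
      exact (Complex.continuous_ofReal.tendsto _).comp h3
    have hW0 : (W 0 : ℂ) ∈ HC := by show (0 : ℝ) ≤ ((W 0 : ℂ)).im; simp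
    have h5 := (hψ.cont _ hW0).tendsto.comp h2
    have h6 : ψ (W 0 : ℂ) = η (e 0) := tendsto_nhds_unique h5 h1
    refine hψ.ne _ hW0 ?_
    rw [h6, hcon]
    exact hTS.2
  -- approximation on `[0, L)`
  have hA : ∀ L ∈ Ioo 0 T, ∃ m : ℕ,
      Appr (fun n => Wn (n + m)) (fun n => xs (n + m)) (fun n => cs (n + m)) W x L := by
    intro L hL
    obtain ⟨m, hm⟩ := eventually_atTop.1 (evT L ⟨hL.1.le, hL.2⟩)
    have hmT : ∀ n, L < Ts (n + m) := fun n => (hm _ (Nat.le_add_left m n)).trans (hT0T _)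
    have hshift : Tendsto (fun n => n + m) atTop atTop := tendsto_add_atTop_nat m
    refine ⟨m, fun n => hWnc _, hWc, fun n => sgen_restrict (hsg _) hL.1 (hmT n).le,
      fun t u hu => hshift.eventually (hWn t u hu), fun t ht => ?_⟩
    rw [← tendstoLocallyUniformlyOn_iff_tendstoUniformlyOn_of_compact isCompact_Icc,
      tendstoLocallyUniformlyOn_iff_forall_tendsto]
    intro u hu
    have huT : u ∈ Ico 0 T := ⟨hu.1, hu.2.trans_lt (ht.2.trans hL.2)⟩
    have hin : ∀ᶠ p : ℕ × ℝ in atTop ×ˢ 𝓝[Icc 0 t] u, p.2 ∈ Icc 0 t :=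
      tendsto_snd.eventually self_mem_nhdsWithin
    have hk : Tendsto (fun p : ℕ × ℝ => p.1 + m) (atTop ×ˢ 𝓝[Icc 0 t] u) atTop :=
      hshift.comp tendsto_fst
    have h1 : Tendsto (fun p : ℕ × ℝ => xs (p.1 + m) p.2) (atTop ×ˢ 𝓝[Icc 0 t] u)
        (𝓝 (x u)) := by
      refine xconv _ (fun p => p.1 + m) Prod.snd u huT hk ?_
        (tendsto_snd.mono_right nhdsWithin_le_nhds)
      filter_upwards [hin] with p hp
      exact ⟨hp.1, hp.2.trans_lt (ht.2.trans (hmT p.1))⟩
    have h2 : Tendsto (fun p : ℕ × ℝ => x p.2) (atTop ×ˢ 𝓝[Icc 0 t] u) (𝓝 (x u)) :=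
      ((hxc u huT).mono fun v hv =>
        ⟨hv.1, hv.2.trans_lt (ht.2.trans hL.2)⟩).tendsto.comp tendsto_snd
    exact (h2.prodMk_nhds h1).mono_right (nhds_le_uniformity _)
  have hgenL : ∀ L ∈ Ioo 0 T, ∃ cL : ℝ → ℝ, Gen W x cL L ∧
      ∀ t ∈ Ico 0 L, Tendsto (fun n => cs n t) atTop (𝓝 (cL t)) := by
    intro L hL
    obtain ⟨m, hm⟩ := hA L hL
    obtain ⟨cL, h1, h2⟩ := HULL.s_hull _ _ _ W x L hm
      (hxc.mono fun t ht => ⟨ht.1, ht.2.trans hL.2⟩)
    exact ⟨cL, h1, fun t ht => (tendsto_add_atTop_iff_nat (f := fun n => cs n t) m).1 (h2 t ht)⟩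
  have hmid : ∀ t ∈ Ico 0 T, (t + T) / 2 ∈ Ioo 0 T ∧ t ∈ Ico 0 ((t + T) / 2) := fun t ht =>
    ⟨⟨by linarith [ht.1, ht.2], by linarith [ht.2]⟩, ht.1, by linarith [ht.2]⟩
  have hcex : ∀ t : ℝ, ∃ y : ℝ, t ∈ Ico 0 T → Tendsto (fun n => cs n t) atTop (𝓝 y) := by
    intro t
    by_cases ht : t ∈ Ico 0 T
    · obtain ⟨cL, -, h2⟩ := hgenL _ (hmid t ht).1
      exact ⟨cL t, fun _ => h2 t (hmid t ht).2⟩
    · exact ⟨0, fun h => absurd h ht⟩
  choose c hcn using hcex
  have hgenL' : ∀ L ∈ Ioo 0 T, Gen W x c L := by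
    intro L hL
    obtain ⟨cL, h1, h2⟩ := hgenL L hL
    refine gen_congr h1 fun t ht => ?_
    exact tendsto_nhds_unique (hcn t ⟨ht.1, ht.2.trans hL.2⟩) (h2 t ht)
  have hgen : Gen W x c T := gen_of_forall hTpos hgenL'
  obtain ⟨γ, harc⟩ := s_arc W x c T hWc hR hH hgen
  have hxγ : ∀ t ∈ Ico 0 T, x t = γ (c t) := by
    intro t ht
    obtain ⟨m, hm⟩ := hA _ (hmid t ht).1
    exact s_nb _ _ _ W x c _ γ hm (hgenL' _ (hmid t ht).1) (fun u hu =>
      (tendsto_add_atTop_iff_nat (f := fun n => cs n u) m).2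
        (hcn u ⟨hu.1, hu.2.trans (hmid t ht).1.2⟩))
      (arc_restrict harc (hmid t ht).1.2.le) t (hmid t ht).2
  have hc0 : ∀ t ∈ Ico 0 T, 0 ≤ c t := by
    intro t ht
    have := hgen.mono ⟨le_rfl, hTpos⟩ ht ht.1
    rwa [hgen.c_zero] at this
  -- the capacity is unbounded
  have hunb : ∀ M : ℝ, ∃ t ∈ Ico 0 T, M < c t := by
    by_contra hcon
    push Not at hcon
    obtain ⟨M, hM⟩ := hcon
    have hM0 : 0 ≤ M := (hc0 0 ⟨le_rfl, hTpos⟩).trans (hM 0 ⟨le_rfl, hTpos⟩)
    obtain ⟨R, hR'⟩ := exists_bdd hWc hM0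
    have hxb : ∀ t ∈ Ico 0 T, ‖x t‖ ≤ max R |W 0| := by
      intro t ht
      rw [hxγ t ht]
      have hct : c t ∈ c '' Ico 0 T := ⟨t, ht, rfl⟩
      rcases eq_or_lt_of_le (hc0 t ht) with h0 | h0
      · rw [← h0, harc.start, Complex.norm_real, Real.norm_eq_abs]
        exact le_max_right _ _
      · refine le_trans ?_ (le_max_left _ _)
        by_contra hcon
        push Not at hcon
        have h1 := dom_mono (hM t ht) (hR' _ (harc.im_pos _ hct h0) hcon)
        rw [harc.dom _ hct] at h1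
        exact h1.2 ⟨c t, ⟨h0.le, le_rfl⟩, rfl⟩
    set U := Ultrafilter.of (𝓝[<] T) with hU
    have hUl : (U : Filter ℝ) ≤ 𝓝[<] T := Ultrafilter.of_le _
    have hev : ∀ᶠ t in (U : Filter ℝ), t ∈ Ico 0 T :=
      hUl (mem_of_superset (Ioo_mem_nhdsLT hTpos) Ioo_subset_Ico_self)
    have hK : IsCompact (closedBall (0 : ℂ) (max R |W 0|) ∩ HC) :=
      (isCompact_closedBall _ _).inter_right isClosed_HC
    obtain ⟨y, hy, hyU⟩ := hK.ultrafilter_le_nhds (U.map x) (le_principal_iff.2 (by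
      rw [Ultrafilter.mem_coe, Ultrafilter.mem_map]
      filter_upwards [hev] with t ht
      exact ⟨by rw [mem_closedBall_zero_iff]; exact hxb t ht, (hx t ht).1⟩))
    have h1 : Tendsto x U (𝓝[HC] y) := by
      refine tendsto_nhdsWithin_iff.2 ⟨hyU, ?_⟩
      filter_upwards [hev] with t ht
      exact (hx t ht).1
    have h2 : Tendsto (fun t => ψ (x t)) U (𝓝 (ψ y)) := (hψ.cont y hy.2).tendsto.comp h1
    have h3 : Tendsto (fun t => ψ (x t)) U (𝓝 b) := by
      have h4 : Tendsto (fun t => η (e t)) U (𝓝 (η (e T))) :=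
        (hηc.tendsto T).mono_left (hUl.trans nhdsWithin_le_nhds)
      rw [hTS.2] at h4
      refine h4.congr' ?_
      filter_upwards [hev] with t ht
      exact (hx t ht).2.symm
    exact hψ.ne y hy.2 (tendsto_nhds_unique h2 h3)
  have hcimg : c '' Ico 0 T = Ici 0 := by
    apply Subset.antisymm
    · rintro _ ⟨t, ht, rfl⟩
      exact hc0 t ht
    · intro s hs
      obtain ⟨t, ht, hst⟩ := hunb s
      have h1 := intermediate_value_Icc ht.1 (hgen.contc.mono
        (fun v hv => ⟨hv.1, hv.2.trans_lt ht.2⟩ : Icc 0 t ⊆ Ico 0 T))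
      rw [hgen.c_zero] at h1
      obtain ⟨v, hv, hvs⟩ := h1 ⟨hs, hst.le⟩
      exact ⟨v, ⟨hv.1, hv.2.trans_lt ht.2⟩, hvs⟩
  have htr := isSimpleTrace_of_arc harc hcimg
  -- convergence of the capacity parametrisations
  set G : unitInterval → ℂ := fun s => if (s : ℝ) < 1 then ψ (γ ((s : ℝ) / (1 - s))) else b with hG
  have hrn : ∀ t ∈ Ico 0 T, Tendsto (fun n => ((rs n (e t) : unitInterval) : ℝ)) atTop
      (𝓝 (c t / (1 + c t))) := by
    intro t ht
    have ht1 : t < 1 := ht.2.trans_le hT1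
    have h3 := hcn t ht
    have h4 := hc0 t ht
    refine (h3.div (tendsto_const_nhds.add h3) (by positivity)).congr' ?_
    filter_upwards [evT t ht] with n hn
    have h2 := hXr n (e t) (by rw [hee t ht.1 ht1.le]; exact hn.le)
    rw [h2, hee t ht.1 ht1.le]
    rfl
  obtain ⟨G', hG', hlim⟩ := contconv (Gn := Gn) (G := G) (by
    intro s
    rw [tendsto_iff_ultrafilter]
    intro U hU
    have hU1 : Tendsto (Prod.fst : ℕ × unitInterval → ℕ) U atTop := tendsto_fst.mono_left hU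
    have hU2 : Tendsto (Prod.snd : ℕ × unitInterval → unitInterval) U (𝓝 s) :=
      tendsto_snd.mono_left hU
    have hU2' : Tendsto (fun p : ℕ × unitInterval => (p.2 : ℝ)) U (𝓝 (s : ℝ)) :=
      (continuous_subtype_val.tendsto s).comp hU2
    choose tp htp using fun p : ℕ × unitInterval => hrs p.1 p.2
    obtain ⟨ts, -, hts⟩ := isCompact_univ.ultrafilter_le_nhds (U.map tp) (by simp)
    have htst : Tendsto tp U (𝓝 ts) := hts
    have h1 : Tendsto (fun p : ℕ × unitInterval => Gn p.1 p.2) U (𝓝 (η ts)) := by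
      have h2 : (fun p : ℕ × unitInterval => Gn p.1 p.2) = fun p => Xn p.1 (tp p) := by
        funext p
        rw [hXG p.1]
        show Gn p.1 p.2 = Gn p.1 (rs p.1 (tp p))
        rw [htp]
      rw [h2]
      have h3 : Tendsto (fun p : ℕ × unitInterval => (Xn p.1, tp p)) U (𝓝 (η, ts)) :=
        (hX.comp hU1).prodMk_nhds htst
      exact (continuous_eval.tendsto (η, ts)).comp h3
    -- comparison
    have hlo : ∀ t ∈ Ico 0 T, t < ts → c t / (1 + c t) ≤ s := by
      intro t ht htt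
      have ht1 : t < 1 := ht.2.trans_le hT1
      refine le_of_tendsto_of_tendsto ((hrn t ht).comp hU1) hU2' ?_
      have h4 : ∀ᶠ p in (U : Filter (ℕ × unitInterval)), e t < tp p := by
        refine htst.eventually (lt_mem_nhds ?_)
        rw [hee t ht.1 ht1.le]
        exact htt
      filter_upwards [h4] with p hp
      have h5 := (hrm p.1) hp
      rw [htp] at h5
      exact_mod_cast h5.le
    have hhi : ∀ t ∈ Ico 0 T, ts < t → (s : ℝ) ≤ c t / (1 + c t) := by
      intro t ht htt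
      have ht1 : t < 1 := ht.2.trans_le hT1
      refine le_of_tendsto_of_tendsto hU2' ((hrn t ht).comp hU1) ?_
      have h4 : ∀ᶠ p in (U : Filter (ℕ × unitInterval)), tp p < e t := by
        refine htst.eventually (gt_mem_nhds ?_)
        rw [hee t ht.1 ht1.le]
        exact htt
      filter_upwards [h4] with p hp
      have h5 := (hrm p.1) hp
      rw [htp] at h5
      exact_mod_cast h5.le
    have hrlt : ∀ t ∈ Ico 0 T, c t / (1 + c t) < 1 := by
      intro t ht
      have := hc0 t ht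
      rw [div_lt_one (by positivity)]
      linarith
    have key : η ts = G s := by
      by_cases hs1 : (s : ℝ) < 1
      · have hGs : G s = ψ (γ ((s : ℝ) / (1 - s))) := by simp only [hG, if_pos hs1]
        have htsT : (ts : ℝ) < T := by
          by_contra hcon
          push Not at hcon
          obtain ⟨t, ht, htM⟩ := hunb ((s : ℝ) / (1 - s))
          have h4 := hlo t ht (ht.2.trans_le hcon)
          have h5 := hc0 t ht
          have h6 : 0 < 1 - (s : ℝ) := by linarith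
          rw [div_lt_iff₀ h6] at htM
          rw [div_le_iff₀ (by positivity)] at h4
          nlinarith
        have htsI : (ts : ℝ) ∈ Ico 0 T := ⟨ts.2.1, htsT⟩
        have hrc : ContinuousWithinAt (fun t => c t / (1 + c t)) (Ico 0 T) ts :=
          (hgen.contc _ htsI).div (continuousWithinAt_const.add (hgen.contc _ htsI))
            (by have := hc0 _ htsI; positivity)
        have hle : c ts / (1 + c ts) ≤ s := by
          rcases eq_or_lt_of_le ts.2.1 with h0 | h0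
          · rw [← h0, hgen.c_zero]
            simpa using s.2.1
          · have h7 : Tendsto (fun t => c t / (1 + c t)) (𝓝[<] (ts : ℝ))
                (𝓝 (c ts / (1 + c ts))) := by
              refine hrc.tendsto.mono_left (nhdsWithin_le_of_mem ?_)
              exact mem_of_superset (Ioo_mem_nhdsLT h0) fun v hv => ⟨hv.1.le, hv.2.trans htsT⟩
            refine le_of_tendsto h7 ?_
            filter_upwards [Ioo_mem_nhdsLT h0] with v hv
            exact hlo v ⟨hv.1.le, hv.2.trans htsT⟩ hv.2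
        have hge' : (s : ℝ) ≤ c ts / (1 + c ts) := by
          have h7 : Tendsto (fun t => c t / (1 + c t)) (𝓝[>] (ts : ℝ))
              (𝓝 (c ts / (1 + c ts))) := by
            refine hrc.tendsto.mono_left (nhdsWithin_le_of_mem ?_)
            exact mem_of_superset (Ioo_mem_nhdsGT htsT) fun v hv =>
              ⟨ts.2.1.trans hv.1.le, hv.2⟩
          refine ge_of_tendsto h7 ?_
          filter_upwards [Ioo_mem_nhdsGT htsT] with v hv
          exact hhi v ⟨ts.2.1.trans hv.1.le, hv.2⟩ hv.1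
        have heq : (s : ℝ) = c ts / (1 + c ts) := le_antisymm hge' hle
        have hcs : (s : ℝ) / (1 - s) = c ts := by
          have h5 := hc0 _ htsI
          rw [heq]
          field_simp
          ring
        rw [hGs, hcs, ← hxγ _ htsI, (hx _ htsI).2, heI]
      · have hs1' : (s : ℝ) = 1 := le_antisymm s.2.2 (not_lt.1 hs1)
        have hGs : G s = b := by simp only [hG, if_neg hs1]
        rw [hGs]
        have htsT : T ≤ (ts : ℝ) := by
          by_contra hcon
          push Not at hcon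
          obtain ⟨v, hv1, hv2⟩ := exists_between hcon
          have hvI : v ∈ Ico 0 T := ⟨ts.2.1.trans hv1.le, hv2⟩
          have h4 := hhi v hvI hv1
          rw [hs1'] at h4
          exact absurd (hrlt v hvI) (not_lt.2 h4)
        have h5 := hge ts ⟨htsT, ts.2.2⟩
        rwa [heI] at h5
    rw [← key]
    exact h1)
  refine ⟨γ, G', htr, ?_, ?_, hlim⟩
  · rw [hG']
    simp [hG]
  · intro t ht
    rw [hG']
    simp only [hG, if_pos ht]

end Vale.Agent.P153.R2.DET
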