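import Vale.Agent.P153.R2.DET.Main
import Vale.Agent.P153.R2.ARCX.Nb

/-!
# P153, block DET: the deterministic limit theorem
-/

namespace Vale.Agent.P153.R2.DET

theorem s_det : S_det := s_det_of_nb ARCX.s_nb

end Vale.Agent.P153.R2.DET
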