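import Vale.Agent.P153.R2.DET.Defs

/-!
# P153, block DET: embeddings of the closed half-plane, capacity parametrisation
-/

open Set Filter Topology Metric Vale.Agent.P164 Bornology

namespace Vale.Agent.P153.R2.DET

open Vale.Agent.P153.R2.ARCX

theorem isClosed_HC : IsClosed HC := isClosed_le continuous_const Complex.continuous_im

theorem Uni.ultra {ψ : ℂ → ℂ} {b : ℂ} (h : Uni ψ b) (U : Ultrafilter ℂ) (hU : HC ∈ U) {w : ℂ}
    (hw : Tendsto ψ U (𝓝 w)) (hwb : w ≠ b) : ∃ z ∈ HC, ψ z = w ∧ (U : Filter ℂ) ≤ 𝓝 z := by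
  by_cases hR : ∃ R : ℝ, closedBall (0 : ℂ) R ∈ U
  · obtain ⟨R, hR⟩ := hR
    have hK : IsCompact (closedBall (0 : ℂ) R ∩ HC) :=
      (isCompact_closedBall _ _).inter_right isClosed_HC
    obtain ⟨z, hz, hzU⟩ := hK.ultrafilter_le_nhds U
      (le_principal_iff.2 (inter_mem hR hU))
    refine ⟨z, hz.2, ?_, hzU⟩
    have h1 : (U : Filter ℂ) ≤ 𝓝[HC] z := le_inf hzU (le_principal_iff.2 hU)
    exact tendsto_nhds_unique ((h.cont z hz.2).mono_left h1) hw
  · push Not at hR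
    exfalso
    have h1 : (U : Filter ℂ) ≤ cobounded ℂ := by
      intro s hs
      obtain ⟨R, hRs⟩ := (hasBasis_cobounded_compl_closedBall (0 : ℂ)).mem_iff.1 hs
      exact mem_of_superset (Ultrafilter.compl_mem_iff_notMem.2 (hR R)) hRs.2
    have h2 : (U : Filter ℂ) ≤ cobounded ℂ ⊓ 𝓟 HC := le_inf h1 (le_principal_iff.2 hU)
    exact hwb (tendsto_nhds_unique hw (h.inf.mono_left h2))

theorem Uni.tendsto {ψ : ℂ → ℂ} {b : ℂ} (h : Uni ψ b) {ι : Type*} {l : Filter ι} {u : ι → ℂ}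
    (hu : ∀ᶠ i in l, u i ∈ HC) {y : ℂ} (hy : y ∈ HC)
    (hl : Tendsto (fun i => ψ (u i)) l (𝓝 (ψ y))) : Tendsto u l (𝓝 y) := by
  rw [tendsto_iff_ultrafilter]
  intro g hg
  obtain ⟨z, hz, hzy, hzg⟩ := h.ultra (g.map u) (hg hu) (w := ψ y) (by
    rw [Ultrafilter.coe_map, tendsto_map'_iff]
    exact hl.mono_left hg) (h.ne y hy)
  rwa [h.inj hz hy hzy] at hzg

theorem Uni.exists {ψ : ℂ → ℂ} {b : ℂ} (h : Uni ψ b) {ι : Type*} {l : Filter ι} [l.NeBot]
    {u : ι → ℂ} (hu : ∀ᶠ i in l, u i ∈ HC) {w : ℂ} (hw : w ≠ b)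
    (hl : Tendsto (fun i => ψ (u i)) l (𝓝 w)) : ∃ y ∈ HC, ψ y = w := by
  obtain ⟨z, hz, hzy, -⟩ := h.ultra ((Ultrafilter.of l).map u) (Ultrafilter.of_le l hu) (w := w) (by
    rw [Ultrafilter.coe_map, tendsto_map'_iff]
    exact hl.mono_left (Ultrafilter.of_le l)) hw
  exact ⟨z, hz, hzy⟩

theorem CapParam.comp {ψ : ℂ → ℂ} {W : ℝ → ℝ} {X G : C(unitInterval, ℂ)}
    (h : CapParam ψ W X G) {φ : C(unitInterval, unitInterval)} (hφ : StrictMono φ)
    (hs : Function.Surjective φ) : CapParam ψ W (X.comp φ) G := by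
  obtain ⟨x, c, r, hg, hr, hr', hX, hc⟩ := h
  have hφ0 : φ 0 = 0 := by
    obtain ⟨t, ht⟩ := hs 0
    have h1 : φ 0 ≤ φ t := hφ.monotone unitInterval.nonneg'
    rw [ht] at h1
    exact le_antisymm h1 unitInterval.nonneg'
  have hφ1 : ∀ t : unitInterval, (t : ℝ) < 1 → ((φ t : unitInterval) : ℝ) < 1 := by
    intro t ht
    have h1 : t < 1 := by exact_mod_cast ht
    have h2 := hφ h1
    exact_mod_cast h2.trans_le unitInterval.le_one'
  set e : ℝ → unitInterval := projIcc 0 1 zero_le_one with he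
  set f : ℝ → ℝ := fun t => (φ (e t) : ℝ) with hf
  have hfc : Continuous f := continuous_subtype_val.comp (φ.continuous.comp continuous_projIcc)
  have hft : ∀ t : unitInterval, f t = φ t := fun t => by
    rw [hf, he]; simp only [projIcc_val]
  have hfI : ∀ t ∈ Ico (0 : ℝ) 1, f t ∈ Ico (0 : ℝ) 1 := by
    intro t ht
    have h1 := hft ⟨t, ht.1, ht.2.le⟩
    simp only at h1
    rw [h1]
    exact ⟨(φ _).2.1, hφ1 _ ht.2⟩
  have hfm : StrictMonoOn f (Ico 0 1) := by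
    intro s hs t ht hst
    have h1 := hft ⟨s, hs.1, hs.2.le⟩
    have h2 := hft ⟨t, ht.1, ht.2.le⟩
    simp only at h1 h2
    rw [h1, h2]
    exact_mod_cast hφ (show (⟨s, hs.1, hs.2.le⟩ : unitInterval) < ⟨t, ht.1, ht.2.le⟩ from hst)
  have hf0 : f 0 = 0 := by
    have h1 := hft 0
    simp only [Icc.coe_zero] at h1
    rw [h1, hφ0]; simp
  have himg : ∀ t ∈ Ico (0 : ℝ) 1, f '' Icc 0 t = Icc 0 (f t) := by
    intro t ht
    apply Subset.antisymm
    · rintro _ ⟨s, hs, rfl⟩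
      have hs' : s ∈ Ico (0 : ℝ) 1 := ⟨hs.1, hs.2.trans_lt ht.2⟩
      exact ⟨(hfI s hs').1, hfm.monotoneOn hs' ht hs.2⟩
    · have := intermediate_value_Icc ht.1 (hfc.continuousOn (s := Icc 0 t))
      rwa [hf0] at this
  refine ⟨fun t => x (f t), fun t => c (f t), r.comp φ, ?_, hr.comp hφ, hr'.comp hs, ?_, ?_⟩
  · refine ⟨one_pos, ?_, ?_, ?_, ?_, ?_, ?_, ?_, ?_⟩
    · exact hg.cont.comp hfc.continuousOn hfI
    · intro s hs t ht hst
      exact hfm.injOn hs ht (hg.inj (hfI s hs) (hfI t ht) hst)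
    · intro t ht
      refine hg.im_pos _ ⟨?_, (hfI t ⟨ht.1.le, ht.2⟩).2⟩
      rw [← hf0]
      exact hfm ⟨le_rfl, one_pos⟩ ⟨ht.1.le, ht.2⟩ ht.1
    · show x (f 0) = _
      rw [hf0]; exact hg.start
    · exact hg.contc.comp hfc.continuousOn hfI
    · intro s hs t ht hst
      exact hg.mono (hfI s hs) (hfI t ht) (hfm hs ht hst)
    · show c (f 0) = _
      rw [hf0]; exact hg.c_zero
    · intro t ht
      show loewnerDomain W (c (f t)) = _
      rw [hg.dom _ (hfI t ht), ← himg t ht, image_image]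
  · rw [hX]; rfl
  · intro t ht
    have h1 := hc (φ t) (hφ1 t ht)
    refine ⟨?_, ?_⟩
    · show X (φ t) = ψ (x (f t))
      rw [h1.1, hft]
    · show (r (φ t) : ℝ) = c (f t) / (1 + c (f t))
      rw [h1.2, hft]

/-- existence of the capacity parametrisation -/
theorem exists_capParam {ψ : ℂ → ℂ} {W : ℝ → ℝ} {X : C(unitInterval, ℂ)} {x : ℝ → ℂ} {c : ℝ → ℝ}
    (hg : SGen W x c 1) (hc : Tendsto c (𝓝[<] 1) atTop)
    (hX : ∀ t : unitInterval, (t : ℝ) < 1 → X t = ψ (x t)) : ∃ G, CapParam ψ W X G := by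
  classical
  have hc0 : ∀ t ∈ Ico (0 : ℝ) 1, 0 ≤ c t := by
    intro t ht
    have := hg.mono.monotoneOn ⟨le_rfl, one_pos⟩ ht ht.1
    rwa [hg.c_zero] at this
  set f : ℝ → ℝ := fun t => if t < 1 then c t / (1 + c t) else 1 with hf
  have hflt : ∀ t ∈ Ico (0 : ℝ) 1, f t = c t / (1 + c t) := fun t ht => by
    simp only [hf, if_pos ht.2]
  have hf1 : f 1 = 1 := by simp [hf]
  have hfI : ∀ t ∈ Ico (0 : ℝ) 1, f t ∈ Ico (0 : ℝ) 1 := by
    intro t ht
    have h1 := hc0 t ht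
    rw [hflt t ht]
    refine ⟨by positivity, ?_⟩
    rw [div_lt_one (by positivity)]
    linarith
  have hfIcc : ∀ t ∈ Icc (0 : ℝ) 1, f t ∈ Icc (0 : ℝ) 1 := by
    intro t ht
    rcases lt_or_eq_of_le ht.2 with h | h
    · exact Ico_subset_Icc_self (hfI t ⟨ht.1, h⟩)
    · rw [h, hf1]; simp
  have hfm : ∀ s ∈ Icc (0 : ℝ) 1, ∀ t ∈ Icc (0 : ℝ) 1, s < t → f s < f t := by
    intro s hs t ht hst
    have hs' : s ∈ Ico (0 : ℝ) 1 := ⟨hs.1, hst.trans_le ht.2⟩
    rcases lt_or_eq_of_le ht.2 with h | h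
    · have ht' : t ∈ Ico (0 : ℝ) 1 := ⟨ht.1, h⟩
      rw [hflt s hs', hflt t ht']
      have h1 := hc0 s hs'
      have h2 := hc0 t ht'
      have h3 := hg.mono hs' ht' hst
      rw [div_lt_div_iff₀ (by positivity) (by positivity)]
      nlinarith
    · rw [h, hf1]; exact (hfI s hs').2
  have hfc : ContinuousOn f (Icc 0 1) := by
    intro t ht
    rcases lt_or_eq_of_le ht.2 with h | h
    · have ht' : t ∈ Ico (0 : ℝ) 1 := ⟨ht.1, h⟩
      have h1 : ContinuousWithinAt (fun t => c t / (1 + c t)) (Ico 0 1) t :=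
        (hg.contc t ht').div (continuousWithinAt_const.add (hg.contc t ht'))
          (by have := hc0 t ht'; positivity)
      have h2 : ContinuousWithinAt f (Ico 0 1) t :=
        h1.congr (fun s hs => hflt s hs) (hflt t ht')
      refine h2.mono_of_mem_nhdsWithin ?_
      rw [mem_nhdsWithin]
      exact ⟨Iio 1, isOpen_Iio, h, fun s hs => ⟨hs.2.1, hs.1⟩⟩
    · subst h
      have h3 : ∀ a < (1 : ℝ), ∀ᶠ s in 𝓝[<] (1 : ℝ), a < f s := by
        intro a ha
        have h4 : ∀ᶠ s in 𝓝[<] (1 : ℝ), |a| / (1 - a) < c s :=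
          hc.eventually_gt_atTop _
        filter_upwards [h4, Ioo_mem_nhdsLT (show (0 : ℝ) < 1 by norm_num)] with s hs hs'
        rw [hflt s ⟨hs'.1.le, hs'.2⟩]
        have h5 : 0 < 1 - a := by linarith
        rw [div_lt_iff₀ h5] at hs
        have h6 : 0 ≤ c s := hc0 s ⟨hs'.1.le, hs'.2⟩
        rw [lt_div_iff₀ (by positivity)]
        have h7 := le_abs_self a
        nlinarith
      have h8 : ∀ᶠ s in 𝓝[Icc 0 1] (1 : ℝ), f s ≤ 1 := by
        filter_upwards [self_mem_nhdsWithin] with s hs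
        exact (hfIcc s hs).2
      have h9 : 𝓝[Icc 0 1] (1 : ℝ) ≤ 𝓝[<] 1 ⊔ pure 1 := by
        rw [show (𝓝[<] (1 : ℝ) ⊔ pure 1) = 𝓝[≤] 1 by
          rw [← Iio_union_right, nhdsWithin_union, nhdsWithin_singleton]]
        exact nhdsWithin_mono _ Icc_subset_Iic_self
      rw [ContinuousWithinAt, hf1, tendsto_order]
      refine ⟨fun a ha => ?_, fun a ha => ?_⟩
      · refine h9 ?_
        refine ⟨h3 a ha, ?_⟩
        show a < f 1
        rw [hf1]; exact ha
      · filter_upwards [h8] with s hs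
        linarith
  have hr0 : Continuous fun t : unitInterval => f t :=
    continuousOn_iff_continuous_domRestrict.1 hfc
  set r : C(unitInterval, unitInterval) :=
    ⟨fun t => ⟨f t, hfIcc t t.2⟩, hr0.subtype_mk _⟩ with hr
  have hrm : StrictMono r := fun s t hst => hfm s s.2 t t.2 hst
  have hf0 : f 0 = 0 := by
    rw [hflt 0 ⟨le_rfl, one_pos⟩, hg.c_zero]; simp
  have hrs : Function.Surjective r := by
    intro y
    have h1 := intermediate_value_Icc (zero_le_one (α := ℝ)) hfc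
    rw [hf0, hf1] at h1
    obtain ⟨t, ht, hty⟩ := h1 y.2
    exact ⟨⟨t, ht⟩, Subtype.ext hty⟩
  set R : unitInterval ≃o unitInterval := hrm.orderIsoOfSurjective r hrs with hR
  have hRr : ∀ t, R t = r t := fun t => rfl
  refine ⟨X.comp ⟨R.symm, R.symm.continuous⟩, x, c, r, hg, hrm, hrs, ?_, ?_⟩
  · ext t
    show X t = X (R.symm (r t))
    rw [← hRr, R.symm_apply_apply]
  · intro t ht
    exact ⟨hX t ht, hflt t ⟨t.2.1, ht⟩⟩

end Vale.Agent.P153.R2.DET
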