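import Vale.Agent.P153.R2.DET.DefsD
import Vale.Agent.P153.R2.DET.Uni

/-!
# P153, block DET: `CapD`
-/

open Set Filter Topology Metric Vale.Agent.P164 Bornology

namespace Vale.Agent.P153.R2.DET

open Vale.Agent.P153.R2.ARCX

theorem CapD.comp {ψ : ℂ → ℂ} {b : ℂ} {ε : ℝ} {W : ℝ → ℝ} {X G : C(unitInterval, ℂ)}
    (h : CapD ψ b ε W X G) {φ : C(unitInterval, unitInterval)} (hφ : StrictMono φ)
    (hs : Function.Surjective φ) : CapD ψ b ε W (X.comp φ) G := by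
  obtain ⟨x, c, r, T₀, T, hT₀, hT₀T, hT1, hg, hr, hr', hX, hXψ, hrc, hnear⟩ := h
  have hφ0 : φ 0 = 0 := by
    obtain ⟨t, ht⟩ := hs 0
    have h1 : φ 0 ≤ φ t := hφ.monotone unitInterval.nonneg'
    rw [ht] at h1
    exact le_antisymm h1 unitInterval.nonneg'
  obtain ⟨S, hS⟩ := hs ⟨T, (hT₀.trans hT₀T).le, hT1⟩
  obtain ⟨S₀, hS₀⟩ := hs ⟨T₀, hT₀.le, hT₀T.le.trans hT1⟩
  have hSv : ((φ S : unitInterval) : ℝ) = T := by rw [hS]
  have hS₀v : ((φ S₀ : unitInterval) : ℝ) = T₀ := by rw [hS₀]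
  have hS₀S : S₀ < S := by
    rw [← hφ.lt_iff_lt, hS, hS₀]
    exact hT₀T
  have hS₀0 : 0 < S₀ := by
    rw [← hφ.lt_iff_lt, hφ0, hS₀]
    exact hT₀
  have hφT : ∀ t : unitInterval, (t : ℝ) < S → ((φ t : unitInterval) : ℝ) < T := by
    intro t ht
    have h2 := hφ (show t < S from ht)
    rw [← hSv]
    exact h2
  set e : ℝ → unitInterval := projIcc 0 1 zero_le_one with he
  set f : ℝ → ℝ := fun t => (φ (e t) : ℝ) with hf
  have hfc : Continuous f := continuous_subtype_val.comp (φ.continuous.comp continuous_projIcc)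
  have hft : ∀ t : unitInterval, f t = φ t := fun t => by
    rw [hf, he]; simp only [projIcc_val]
  have hSle : ∀ t ∈ Ico (0 : ℝ) S, t ≤ 1 := fun t ht => ht.2.le.trans S.2.2
  have hfI : ∀ t ∈ Ico (0 : ℝ) S, f t ∈ Ico (0 : ℝ) T := by
    intro t ht
    have h1 := hft ⟨t, ht.1, hSle t ht⟩
    simp only at h1
    rw [h1]
    exact ⟨(φ _).2.1, hφT _ ht.2⟩
  have hfm : StrictMonoOn f (Ico 0 S) := by
    intro s hs t ht hst
    have h1 := hft ⟨s, hs.1, hSle s hs⟩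
    have h2 := hft ⟨t, ht.1, hSle t ht⟩
    simp only at h1 h2
    rw [h1, h2]
    exact_mod_cast hφ (show (⟨s, hs.1, hSle s hs⟩ : unitInterval) < ⟨t, ht.1, hSle t ht⟩ from hst)
  have hf0 : f 0 = 0 := by
    have h1 := hft 0
    simp only [Icc.coe_zero] at h1
    rw [h1, hφ0]; simp
  have hSpos : (0 : ℝ) < S := hS₀0.trans hS₀S
  have himg : ∀ t ∈ Ico (0 : ℝ) S, f '' Icc 0 t = Icc 0 (f t) := by
    intro t ht
    apply Subset.antisymm
    · rintro _ ⟨s, hs, rfl⟩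
      have hs' : s ∈ Ico (0 : ℝ) S := ⟨hs.1, hs.2.trans_lt ht.2⟩
      exact ⟨(hfI s hs').1, hfm.monotoneOn hs' ht hs.2⟩
    · have := intermediate_value_Icc ht.1 (hfc.continuousOn (s := Icc 0 t))
      rwa [hf0] at this
  refine ⟨fun t => x (f t), fun t => c (f t), r.comp φ, S₀, S, hS₀0, hS₀S, S.2.2, ?_,
    hr.comp hφ, hr'.comp hs, ?_, ?_, ?_, ?_⟩
  · refine ⟨hSpos, ?_, ?_, ?_, ?_, ?_, ?_, ?_, ?_⟩
    · exact hg.cont.comp hfc.continuousOn hfI
    · intro s hs t ht hst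
      exact hfm.injOn hs ht (hg.inj (hfI s hs) (hfI t ht) hst)
    · intro t ht
      refine hg.im_pos _ ⟨?_, (hfI t ⟨ht.1.le, ht.2⟩).2⟩
      rw [← hf0]
      exact hfm ⟨le_rfl, hSpos⟩ ⟨ht.1.le, ht.2⟩ ht.1
    · show x (f 0) = _
      rw [hf0]; exact hg.start
    · exact hg.contc.comp hfc.continuousOn hfI
    · intro s hs t ht hst
      exact hg.mono (hfI s hs) (hfI t ht) (hfm hs ht hst)
    · show c (f 0) = _
      rw [hf0]; exact hg.c_zero
    · intro t ht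
      show loewnerDomain W (c (f t)) = _
      rw [hg.dom _ (hfI t ht), ← himg t ht, image_image]
  · rw [hX]; rfl
  · intro t ht
    show X (φ t) = ψ (x (f t))
    rw [hXψ _ (hφT t ht), hft]
  · intro t ht
    show (r (φ t) : ℝ) = c (f t) / (1 + c (f t))
    rw [hrc _ (by
      rw [← hS₀v]
      exact_mod_cast hφ.monotone (show t ≤ S₀ from ht)), hft]
  · intro t ht
    show dist (X (φ t)) b ≤ ε
    refine hnear _ ?_
    rw [← hS₀v]
    exact_mod_cast hφ.monotone (show S₀ ≤ t from ht)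

/-- existence of the capacity parametrisation -/
theorem exists_capD {ψ : ℂ → ℂ} {b : ℂ} {ε : ℝ} {W : ℝ → ℝ} {X : C(unitInterval, ℂ)} {x : ℝ → ℂ}
    {c : ℝ → ℝ} {T₀ T : ℝ} (hT₀ : 0 < T₀) (hT₀T : T₀ < T) (hT1 : T ≤ 1) (hg : SGen W x c T)
    (hX : ∀ t : unitInterval, (t : ℝ) < T → X t = ψ (x t))
    (hnear : ∀ t : unitInterval, T₀ ≤ (t : ℝ) → dist (X t) b ≤ ε) : ∃ G, CapD ψ b ε W X G := by
  classical
  have hc0 : ∀ t ∈ Icc (0 : ℝ) T₀, 0 ≤ c t := by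
    intro t ht
    have := hg.mono.monotoneOn ⟨le_rfl, hT₀.trans hT₀T⟩ ⟨ht.1, ht.2.trans_lt hT₀T⟩ ht.1
    rwa [hg.c_zero] at this
  set ρ : ℝ := c T₀ / (1 + c T₀) with hρ
  have hcT₀ := hc0 T₀ ⟨hT₀.le, le_rfl⟩
  have hρ1 : ρ < 1 := by
    rw [hρ, div_lt_one (by positivity)]
    linarith
  have hT₀1 : T₀ < 1 := hT₀T.trans_le hT1
  have h1T₀ : 0 < 1 - T₀ := by linarith
  set f₁ : ℝ → ℝ := fun t => c t / (1 + c t) with hf₁
  set f₂ : ℝ → ℝ := fun t => ρ + (1 - ρ) * ((t - T₀) / (1 - T₀)) with hf₂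
  set f : ℝ → ℝ := fun t => if t ≤ T₀ then f₁ t else f₂ t with hf
  have hle : ∀ t, t ≤ T₀ → f t = f₁ t := fun t ht => by simp only [hf, if_pos ht]
  have hf₂0 : f₂ T₀ = ρ := by simp [hf₂]
  have hge : ∀ t, T₀ ≤ t → f t = f₂ t := fun t ht => by
    rcases eq_or_lt_of_le ht with h | h
    · rw [← h, hle _ le_rfl, hf₂0]
    · simp only [hf, if_neg (not_le.2 h)]
  have hf1 : f 1 = 1 := by
    rw [hge 1 hT₀1.le, hf₂]
    simp only
    rw [div_self h1T₀.ne']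
    ring
  have hf0 : f 0 = 0 := by
    rw [hle 0 hT₀.le, hf₁]
    simp [hg.c_zero]
  have hm₁ : ∀ s ∈ Icc (0 : ℝ) T₀, ∀ t ∈ Icc (0 : ℝ) T₀, s < t → f₁ s < f₁ t := by
    intro s hs t ht hst
    have h1 := hc0 s hs
    have h2 := hc0 t ht
    have h3 := hg.mono ⟨hs.1, hs.2.trans_lt hT₀T⟩ ⟨ht.1, ht.2.trans_lt hT₀T⟩ hst
    simp only [hf₁]
    rw [div_lt_div_iff₀ (by positivity) (by positivity)]
    nlinarith
  have hm₂ : ∀ s t : ℝ, s < t → f₂ s < f₂ t := by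
    intro s t hst
    simp only [hf₂]
    have h1 : (s - T₀) / (1 - T₀) < (t - T₀) / (1 - T₀) :=
      div_lt_div_of_pos_right (by linarith) h1T₀
    nlinarith
  have hfm : ∀ s ∈ Icc (0 : ℝ) 1, ∀ t ∈ Icc (0 : ℝ) 1, s < t → f s < f t := by
    intro s hs t ht hst
    rcases le_total t T₀ with h | h
    · rw [hle s (hst.le.trans h), hle t h]
      exact hm₁ s ⟨hs.1, hst.le.trans h⟩ t ⟨ht.1, h⟩ hst
    · rcases le_total T₀ s with h' | h'
      · rw [hge s h', hge t h]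
        exact hm₂ s t hst
      · rw [hle s h', hge t h]
        rcases eq_or_lt_of_le h' with h2 | h2
        · rw [h2, show f₁ T₀ = f₂ T₀ from by rw [hf₂0]]
          exact hm₂ _ _ (h2 ▸ hst)
        · refine lt_of_lt_of_le (hm₁ s ⟨hs.1, h'⟩ T₀ ⟨hT₀.le, le_rfl⟩ h2) ?_
          rw [show f₁ T₀ = f₂ T₀ from by rw [hf₂0]]
          rcases eq_or_lt_of_le h with h3 | h3
          · rw [h3]
          · exact (hm₂ _ _ h3).le
  have hfIcc : ∀ t ∈ Icc (0 : ℝ) 1, f t ∈ Icc (0 : ℝ) 1 := by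
    intro t ht
    constructor
    · rcases eq_or_lt_of_le ht.1 with h | h
      · rw [← h, hf0]
      · rw [← hf0]; exact (hfm 0 ⟨le_rfl, zero_le_one⟩ t ht h).le
    · rcases eq_or_lt_of_le ht.2 with h | h
      · rw [h, hf1]
      · rw [← hf1]; exact (hfm t ht 1 ⟨zero_le_one, le_rfl⟩ h).le
  have hc₁ : ContinuousOn f₁ (Icc 0 T₀) := by
    intro t ht
    have h1 : ContinuousWithinAt c (Icc 0 T₀) t :=
      (hg.contc t ⟨ht.1, ht.2.trans_lt hT₀T⟩).mono fun u hu => ⟨hu.1, hu.2.trans_lt hT₀T⟩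
    exact h1.div (continuousWithinAt_const.add h1) (by have := hc0 t ht; positivity)
  have hc₂ : Continuous f₂ := by
    simp only [hf₂]
    fun_prop
  have hfc : ContinuousOn f (Icc 0 1) := by
    have h1 : ContinuousOn f (Icc 0 T₀) := hc₁.congr fun t ht => hle t ht.2
    have h2 : ContinuousOn f (Icc T₀ 1) := hc₂.continuousOn.congr fun t ht => hge t ht.1
    have h3 := h1.union_of_isClosed h2 isClosed_Icc isClosed_Icc
    rwa [Icc_union_Icc_eq_Icc hT₀.le hT₀1.le] at h3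
  have hr0 : Continuous fun t : unitInterval => f t :=
    continuousOn_iff_continuous_domRestrict.1 hfc
  set r : C(unitInterval, unitInterval) :=
    ⟨fun t => ⟨f t, hfIcc t t.2⟩, hr0.subtype_mk _⟩ with hr
  have hrm : StrictMono r := fun s t hst => hfm s s.2 t t.2 hst
  have hrs : Function.Surjective r := by
    intro y
    have h1 := intermediate_value_Icc (zero_le_one (α := ℝ)) hfc
    rw [hf0, hf1] at h1
    obtain ⟨t, ht, hty⟩ := h1 y.2
    exact ⟨⟨t, ht⟩, Subtype.ext hty⟩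
  set R : unitInterval ≃o unitInterval := hrm.orderIsoOfSurjective r hrs with hR
  have hRr : ∀ t, R t = r t := fun t => rfl
  refine ⟨X.comp ⟨R.symm, R.symm.continuous⟩, x, c, r, T₀, T, hT₀, hT₀T, hT1, hg, hrm, hrs, ?_,
    hX, ?_, hnear⟩
  · ext t
    show X t = X (R.symm (r t))
    rw [← hRr, R.symm_apply_apply]
  · intro t ht
    exact hle t ht

end Vale.Agent.P153.R2.DET
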